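import Vale.Agent.P237.Quant.TailData.N96.tailN96N0Part0
import Vale.Agent.P237.Quant.TailData.N96.tailN96N0Part1
import Vale.Agent.P237.Quant.TailData.N96.tailN96N0Part2
import Vale.Agent.P237.Quant.TailData.N96.tailN96N0Part3
import Vale.Agent.P237.Quant.TailData.N96.tailN96N0Part4
import Vale.Agent.P237.Quant.TailData.N96.tailN96N0Part5
import Vale.Agent.P237.Quant.TailData.N96.tailN96N0Part6
import Vale.Agent.P237.Quant.TailData.N96.tailN96N0Part7
import Vale.Agent.P237.Quant.TailData.N96.tailN96N0Part8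
import Vale.Agent.P237.Quant.TailData.N96.tailN96N0Part9

/-!
Tail calibration tailN96N0 in dimension 96. The check. Generated data, checked by the kernel.
-/

set_option maxRecDepth 100000
set_option linter.all false

namespace Vale.Agent.P237.Quant.TailData

open TailCert


/-- The calibration. -/
noncomputable def tailN96N0 : Cfg :=
  tailN96N0Base.withIvals (List.flatten [tailN96N0L0, tailN96N0L1, tailN96N0L2, tailN96N0L3, tailN96N0L4, tailN96N0L5, tailN96N0L6, tailN96N0L7, tailN96N0L8, tailN96N0L9, tailN96N0L10, tailN96N0L11, tailN96N0L12, tailN96N0L13, tailN96N0L14, tailN96N0L15, tailN96N0L16, tailN96N0L17, tailN96N0L18, tailN96N0L19, tailN96N0L20, tailN96N0L21, tailN96N0L22, tailN96N0L23, tailN96N0L24, tailN96N0L25, tailN96N0L26, tailN96N0L27, tailN96N0L28, tailN96N0L29, tailN96N0L30, tailN96N0L31, tailN96N0L32, tailN96N0L33, tailN96N0L34, tailN96N0L35, tailN96N0L36, tailN96N0L37, tailN96N0L38, tailN96N0L39])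

theorem tailN96N0_parts : [tailN96N0L0, tailN96N0L1, tailN96N0L2, tailN96N0L3, tailN96N0L4, tailN96N0L5, tailN96N0L6, tailN96N0L7, tailN96N0L8, tailN96N0L9, tailN96N0L10, tailN96N0L11, tailN96N0L12, tailN96N0L13, tailN96N0L14, tailN96N0L15, tailN96N0L16, tailN96N0L17, tailN96N0L18, tailN96N0L19, tailN96N0L20, tailN96N0L21, tailN96N0L22, tailN96N0L23, tailN96N0L24, tailN96N0L25, tailN96N0L26, tailN96N0L27, tailN96N0L28, tailN96N0L29, tailN96N0L30, tailN96N0L31, tailN96N0L32, tailN96N0L33, tailN96N0L34, tailN96N0L35, tailN96N0L36, tailN96N0L37, tailN96N0L38, tailN96N0L39].Forall fun l => tailN96N0Base.partUsed tailN96N0Used l = true := by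
  simp only [List.forall_cons, List.Forall]
  exact ⟨tailN96N0L0_ok, tailN96N0L1_ok, tailN96N0L2_ok, tailN96N0L3_ok, tailN96N0L4_ok, tailN96N0L5_ok, tailN96N0L6_ok, tailN96N0L7_ok, tailN96N0L8_ok, tailN96N0L9_ok, tailN96N0L10_ok, tailN96N0L11_ok, tailN96N0L12_ok, tailN96N0L13_ok, tailN96N0L14_ok, tailN96N0L15_ok, tailN96N0L16_ok, tailN96N0L17_ok, tailN96N0L18_ok, tailN96N0L19_ok, tailN96N0L20_ok, tailN96N0L21_ok, tailN96N0L22_ok, tailN96N0L23_ok, tailN96N0L24_ok, tailN96N0L25_ok, tailN96N0L26_ok, tailN96N0L27_ok, tailN96N0L28_ok, tailN96N0L29_ok, tailN96N0L30_ok, tailN96N0L31_ok, tailN96N0L32_ok, tailN96N0L33_ok, tailN96N0L34_ok, tailN96N0L35_ok, tailN96N0L36_ok, tailN96N0L37_ok, tailN96N0L38_ok, tailN96N0L39_ok⟩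

theorem tailN96N0_check : tailN96N0.check = true :=
  Cfg.check_of_parts (by decide +kernel) tailN96N0_parts

end Vale.Agent.P237.Quant.TailData
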