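import Vale.Agent.P237.Quant.TailData.N96.tailN96P1Part0
import Vale.Agent.P237.Quant.TailData.N96.tailN96P1Part1
import Vale.Agent.P237.Quant.TailData.N96.tailN96P1Part2
import Vale.Agent.P237.Quant.TailData.N96.tailN96P1Part3
import Vale.Agent.P237.Quant.TailData.N96.tailN96P1Part4
import Vale.Agent.P237.Quant.TailData.N96.tailN96P1Part5
import Vale.Agent.P237.Quant.TailData.N96.tailN96P1Part6

/-!
Tail calibration tailN96P1 in dimension 96. The check. Generated data, checked by the kernel.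
-/

set_option maxRecDepth 100000
set_option linter.all false

namespace Vale.Agent.P237.Quant.TailData

open TailCert


/-- The calibration. -/
noncomputable def tailN96P1 : Cfg :=
  tailN96P1Base.withIvals (List.flatten [tailN96P1L0, tailN96P1L1, tailN96P1L2, tailN96P1L3, tailN96P1L4, tailN96P1L5, tailN96P1L6, tailN96P1L7, tailN96P1L8, tailN96P1L9, tailN96P1L10, tailN96P1L11, tailN96P1L12, tailN96P1L13, tailN96P1L14, tailN96P1L15, tailN96P1L16, tailN96P1L17, tailN96P1L18, tailN96P1L19, tailN96P1L20, tailN96P1L21, tailN96P1L22, tailN96P1L23, tailN96P1L24, tailN96P1L25])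

theorem tailN96P1_parts : [tailN96P1L0, tailN96P1L1, tailN96P1L2, tailN96P1L3, tailN96P1L4, tailN96P1L5, tailN96P1L6, tailN96P1L7, tailN96P1L8, tailN96P1L9, tailN96P1L10, tailN96P1L11, tailN96P1L12, tailN96P1L13, tailN96P1L14, tailN96P1L15, tailN96P1L16, tailN96P1L17, tailN96P1L18, tailN96P1L19, tailN96P1L20, tailN96P1L21, tailN96P1L22, tailN96P1L23, tailN96P1L24, tailN96P1L25].Forall fun l => tailN96P1Base.partUsed tailN96P1Used l = true := by
  simp only [List.forall_cons, List.Forall]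
  exact ⟨tailN96P1L0_ok, tailN96P1L1_ok, tailN96P1L2_ok, tailN96P1L3_ok, tailN96P1L4_ok, tailN96P1L5_ok, tailN96P1L6_ok, tailN96P1L7_ok, tailN96P1L8_ok, tailN96P1L9_ok, tailN96P1L10_ok, tailN96P1L11_ok, tailN96P1L12_ok, tailN96P1L13_ok, tailN96P1L14_ok, tailN96P1L15_ok, tailN96P1L16_ok, tailN96P1L17_ok, tailN96P1L18_ok, tailN96P1L19_ok, tailN96P1L20_ok, tailN96P1L21_ok, tailN96P1L22_ok, tailN96P1L23_ok, tailN96P1L24_ok, tailN96P1L25_ok⟩

theorem tailN96P1_check : tailN96P1.check = true :=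
  Cfg.check_of_parts (by decide +kernel) tailN96P1_parts

end Vale.Agent.P237.Quant.TailData
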