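import Vale.Agent.P237.Quant.TailData.N96.tailN96P2Part0
import Vale.Agent.P237.Quant.TailData.N96.tailN96P2Part1
import Vale.Agent.P237.Quant.TailData.N96.tailN96P2Part2
import Vale.Agent.P237.Quant.TailData.N96.tailN96P2Part3
import Vale.Agent.P237.Quant.TailData.N96.tailN96P2Part4
import Vale.Agent.P237.Quant.TailData.N96.tailN96P2Part5

/-!
Tail calibration tailN96P2 in dimension 96. The check. Generated data, checked by the kernel.
-/

set_option maxRecDepth 100000
set_option linter.all false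

namespace Vale.Agent.P237.Quant.TailData

open TailCert


/-- The calibration. -/
noncomputable def tailN96P2 : Cfg :=
  tailN96P2Base.withIvals (List.flatten [tailN96P2L0, tailN96P2L1, tailN96P2L2, tailN96P2L3, tailN96P2L4, tailN96P2L5, tailN96P2L6, tailN96P2L7, tailN96P2L8, tailN96P2L9, tailN96P2L10, tailN96P2L11, tailN96P2L12, tailN96P2L13, tailN96P2L14, tailN96P2L15, tailN96P2L16, tailN96P2L17, tailN96P2L18, tailN96P2L19, tailN96P2L20, tailN96P2L21, tailN96P2L22])

theorem tailN96P2_parts : [tailN96P2L0, tailN96P2L1, tailN96P2L2, tailN96P2L3, tailN96P2L4, tailN96P2L5, tailN96P2L6, tailN96P2L7, tailN96P2L8, tailN96P2L9, tailN96P2L10, tailN96P2L11, tailN96P2L12, tailN96P2L13, tailN96P2L14, tailN96P2L15, tailN96P2L16, tailN96P2L17, tailN96P2L18, tailN96P2L19, tailN96P2L20, tailN96P2L21, tailN96P2L22].Forall fun l => tailN96P2Base.partUsed tailN96P2Used l = true := by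
  simp only [List.forall_cons, List.Forall]
  exact ⟨tailN96P2L0_ok, tailN96P2L1_ok, tailN96P2L2_ok, tailN96P2L3_ok, tailN96P2L4_ok, tailN96P2L5_ok, tailN96P2L6_ok, tailN96P2L7_ok, tailN96P2L8_ok, tailN96P2L9_ok, tailN96P2L10_ok, tailN96P2L11_ok, tailN96P2L12_ok, tailN96P2L13_ok, tailN96P2L14_ok, tailN96P2L15_ok, tailN96P2L16_ok, tailN96P2L17_ok, tailN96P2L18_ok, tailN96P2L19_ok, tailN96P2L20_ok, tailN96P2L21_ok, tailN96P2L22_ok⟩

theorem tailN96P2_check : tailN96P2.check = true :=
  Cfg.check_of_parts (by decide +kernel) tailN96P2_parts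

end Vale.Agent.P237.Quant.TailData
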